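import Vale.Agent.P075.R.H903.FinB

/-!
# P075, block FIN: from real continuous functions with compact support to Question 1
-/

namespace Vale.Agent.P075.R.H903

open MeasureTheory Filter Topology ENNReal

/-- a real function as a complex function -/
noncomputable def up (g : ℝ × ℝ → ℝ) : ℝ × ℝ → ℂ := fun p => (g p : ℂ)

theorem cc_memLp {g : ℝ × ℝ → ℝ} (hg : CC g) : MemLp (up g) 3 volume := by
  refine Continuous.memLp_of_hasCompactSupport (Complex.continuous_ofReal.comp hg.1) ?_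
  exact hg.2.comp_left (g := fun x : ℝ => (x : ℂ)) (by simp)

theorem N3_up {g : ℝ × ℝ → ℝ} (hg : CC g) : N3 (up g) = (I3 g) ^ ((1 : ℝ) / 3) := by
  unfold N3
  rw [(cc_memLp hg).eLpNorm_eq_integral_rpow_norm (by norm_num) (by norm_num)]
  have h : ∫ p, ‖up g p‖ ^ (3 : ℝ≥0∞).toReal = I3 g := by
    unfold I3 up
    refine integral_congr_ae (ae_of_all _ fun p => ?_)
    simp only [Complex.norm_real, Real.norm_eq_abs, ENNReal.toReal_ofNat]
    exact_mod_cast Real.rpow_natCast |g p| 3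
  rw [h, ENNReal.toReal_ofReal]
  · norm_num
  · refine Real.rpow_nonneg ?_ _
    exact integral_nonneg fun p => by positivity

/-- the form of real functions -/
theorem T_up {g₀ g₁ g₂ : ℝ × ℝ → ℝ} (h0 : CC g₀) (h1 : CC g₁) (h2 : CC g₂) {ε R : ℝ}
    (hε : 0 < ε) (hR : ε < R) :
    T ε R (up g₀) (up g₁) (up g₂)
      = ((∫ u in ε..R, (W g₀ g₁ g₂ u - W g₀ g₁ g₂ (-u)) / u : ℝ) : ℂ) := by
  have hint := integrable_kern (ε := ε) (R := R) hε (cc_memLp h0) (cc_memLp h1) (cc_memLp h2)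
  set K := kern ε R (up g₀) (up g₁) (up g₂) with hK
  have e1 : ∫ x, K x = ∫ q, K (sh q) := by
    have h := integral_map (μ := (volume : Measure ((ℝ × ℝ) × ℝ))) (φ := sh)
      mp_sh.measurable.aemeasurable (f := K) (by
        rw [mp_sh.map_eq]
        exact hint.1)
    rw [mp_sh.map_eq] at h
    exact h
  have hint2 : Integrable (fun q => K (sh q))
      ((volume : Measure (ℝ × ℝ)).prod (volume : Measure ℝ)) :=
    mp_sh.integrable_comp_of_integrable hint
  have e2 : ∫ q, K (sh q) = ∫ u : ℝ, ∫ p : ℝ × ℝ, K (sh (p, u)) := by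
    rw [Measure.volume_eq_prod]
    exact integral_prod_symm _ hint2
  set f : ℝ → ℝ := fun u => W g₀ g₁ g₂ u / u with hf
  set j : ℝ → ℝ := fun u => if ε < |u| ∧ |u| < R then f u else 0 with hj
  have e3 : ∀ u : ℝ, ∫ p : ℝ × ℝ, K (sh (p, u)) = ((j u : ℝ) : ℂ) := by
    intro u
    simp only [hK, kern_sh, hj]
    by_cases hu : ε < |u| ∧ |u| < R
    · simp only [hu, and_self, if_true]
      rw [integral_div, hf]
      simp only [Complex.ofReal_div]
      congr 1
      unfold W
      refine Eq.trans ?_ integral_complex_ofReal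
      refine integral_congr_ae (ae_of_all _ fun p => ?_)
      simp [up, pA, pB]
    · simp only [hu, if_false, integral_zero, Complex.ofReal_zero]
  have hJ : Integrable (fun u : ℝ => ((j u : ℝ) : ℂ)) volume := by
    have := hint2.integral_prod_right
    refine this.congr (ae_of_all _ fun u => ?_)
    exact e3 u
  have hj1 : Integrable j volume := by
    have := hJ.re
    refine this.congr (ae_of_all _ fun u => ?_)
    simp
  have e4 : T ε R (up g₀) (up g₁) (up g₂) = ((∫ u, j u : ℝ) : ℂ) := by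
    unfold T
    rw [← hK, e1, e2]
    simp only [e3]
    exact integral_ofReal
  rw [e4]
  congr 1
  have on1 : IntegrableOn f (Set.Ioc ε R) volume := by
    have h : IntegrableOn f (Set.Ioo ε R) volume := by
      refine (hj1.integrableOn (s := Set.Ioo ε R)).congr_fun ?_ measurableSet_Ioo
      intro u hu
      have : ε < |u| ∧ |u| < R := by
        rw [abs_of_pos (hε.trans hu.1)]
        exact hu
      simp only [hj, this, and_self, if_true]
    exact (integrableOn_Ioc_iff_integrableOn_Ioo).2 h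
  have on2 : IntegrableOn f (Set.Ioc (-R) (-ε)) volume := by
    have h : IntegrableOn f (Set.Ioo (-R) (-ε)) volume := by
      refine (hj1.integrableOn (s := Set.Ioo (-R) (-ε))).congr_fun ?_ measurableSet_Ioo
      intro u hu
      have : ε < |u| ∧ |u| < R := by
        rw [abs_of_neg (by linarith [hu.2])]
        exact ⟨by linarith [hu.2], by linarith [hu.1]⟩
      simp only [hj, this, and_self, if_true]
    exact (integrableOn_Ioc_iff_integrableOn_Ioo).2 h
  have hsplit : j = fun u => (Set.Ioo ε R).indicator f u + (Set.Ioo (-R) (-ε)).indicator f u := by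
    ext u
    simp only [hj, Set.indicator]
    by_cases hu : ε < |u| ∧ |u| < R
    · simp only [hu, and_self, if_true]
      rcases lt_or_ge 0 u with hp | hn
      · rw [abs_of_pos hp] at hu
        have m1 : u ∈ Set.Ioo ε R := hu
        have m2 : u ∉ Set.Ioo (-R) (-ε) := fun h => by linarith [h.2]
        simp [m1, m2]
      · rw [abs_of_nonpos hn] at hu
        have m1 : u ∉ Set.Ioo ε R := fun h => by linarith [h.1]
        have m2 : u ∈ Set.Ioo (-R) (-ε) := ⟨by linarith [hu.2], by linarith [hu.1]⟩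
        simp [m1, m2]
    · simp only [hu, if_false]
      have m1 : u ∉ Set.Ioo ε R := fun h => hu (by
        rw [abs_of_pos (hε.trans h.1)]
        exact h)
      have m2 : u ∉ Set.Ioo (-R) (-ε) := fun h => hu (by
        rw [abs_of_neg (by linarith [h.2])]
        exact ⟨by linarith [h.2], by linarith [h.1]⟩)
      simp [m1, m2]
  have i1 : Integrable ((Set.Ioo ε R).indicator f) volume :=
    (on1.mono_set Set.Ioo_subset_Ioc_self).integrable_indicator measurableSet_Ioo
  have i2 : Integrable ((Set.Ioo (-R) (-ε)).indicator f) volume :=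
    (on2.mono_set Set.Ioo_subset_Ioc_self).integrable_indicator measurableSet_Ioo
  have hR' : -R ≤ -ε := by linarith
  have v1 : IntervalIntegrable f volume ε R :=
    (intervalIntegrable_iff_integrableOn_Ioc_of_le hR.le).2 on1
  have v2 : IntervalIntegrable f volume (-R) (-ε) :=
    (intervalIntegrable_iff_integrableOn_Ioc_of_le hR').2 on2
  have v3 : IntervalIntegrable (fun u => f (-u)) volume ε R := by
    have h := (IntervalIntegrable.iff_comp_neg (by simp)).1 v2
    simp only [neg_neg] at h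
    exact h.symm
  calc ∫ u, j u = (∫ u in Set.Ioo ε R, f u) + ∫ u in Set.Ioo (-R) (-ε), f u := by
        rw [hsplit, integral_add i1 i2, integral_indicator measurableSet_Ioo,
          integral_indicator measurableSet_Ioo]
    _ = (∫ u in ε..R, f u) + ∫ u in (-R)..(-ε), f u := by
        rw [intervalIntegral.integral_of_le hR.le, intervalIntegral.integral_of_le hR',
          integral_Ioc_eq_integral_Ioo, integral_Ioc_eq_integral_Ioo]
    _ = (∫ u in ε..R, f u) + ∫ u in ε..R, f (-u) := by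
        rw [intervalIntegral.integral_comp_neg]
    _ = ∫ u in ε..R, (f u + f (-u)) := (intervalIntegral.integral_add v1 v3).symm
    _ = ∫ u in ε..R, (W g₀ g₁ g₂ u - W g₀ g₁ g₂ (-u)) / u := by
        refine intervalIntegral.integral_congr fun u _ => ?_
        simp only [hf]
        rw [div_neg, sub_div]
        ring

/-! ### real and imaginary parts -/

/-- real part -/
noncomputable def rp (G : ℝ × ℝ → ℂ) : ℝ × ℝ → ℝ := fun p => (G p).re

/-- imaginary part -/
noncomputable def ip (G : ℝ × ℝ → ℂ) : ℝ × ℝ → ℝ := fun p => (G p).im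

theorem cc_rp {G : ℝ × ℝ → ℂ} (hc : Continuous G) (hs : HasCompactSupport G) : CC (rp G) :=
  ⟨Complex.continuous_re.comp hc, hs.comp_left (g := Complex.re) (by simp)⟩

theorem cc_ip {G : ℝ × ℝ → ℂ} (hc : Continuous G) (hs : HasCompactSupport G) : CC (ip G) :=
  ⟨Complex.continuous_im.comp hc, hs.comp_left (g := Complex.im) (by simp)⟩

theorem N3_rp_le {G : ℝ × ℝ → ℂ} (hG : MemLp G 3 volume) : N3 (up (rp G)) ≤ N3 G := by
  refine ENNReal.toReal_mono hG.2.ne (eLpNorm_mono fun p => ?_)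
  simp only [up, rp, Complex.norm_real, Real.norm_eq_abs]
  exact Complex.abs_re_le_norm _

theorem N3_ip_le {G : ℝ × ℝ → ℂ} (hG : MemLp G 3 volume) : N3 (up (ip G)) ≤ N3 G := by
  refine ENNReal.toReal_mono hG.2.ne (eLpNorm_mono fun p => ?_)
  simp only [up, ip, Complex.norm_real, Real.norm_eq_abs]
  exact Complex.abs_im_le_norm _

theorem re_im (z : ℂ) : z = (z.re : ℂ) + Complex.I * (z.im : ℂ) := by
  conv_lhs => rw [← Complex.re_add_im z]
  ring

section
variable {G₀ G₁ G₂ : ℝ × ℝ → ℂ} {ε R : ℝ}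

theorem split0 (hε : 0 < ε) (c : Continuous G₀) (s : HasCompactSupport G₀)
    (h1 : MemLp G₁ 3 volume) (h2 : MemLp G₂ 3 volume) :
    ‖T ε R G₀ G₁ G₂‖ ≤ ‖T ε R (up (rp G₀)) G₁ G₂‖ + ‖T ε R (up (ip G₀)) G₁ G₂‖ := by
  have i1 := integrable_kern (R := R) hε (cc_memLp (cc_rp c s)) h1 h2
  have i2 := integrable_kern (R := R) hε (cc_memLp (cc_ip c s)) h1 h2
  have e : T ε R G₀ G₁ G₂ = T ε R (up (rp G₀)) G₁ G₂ + Complex.I * T ε R (up (ip G₀)) G₁ G₂ := by
    unfold T
    rw [← integral_const_mul, ← integral_add i1 (i2.const_mul _)]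
    refine integral_congr_ae (ae_of_all _ fun x => ?_)
    simp only [kern]
    split_ifs
    · rw [re_im (G₀ (x.1, x.2.1))]
      simp only [up, rp, ip]
      simp
      ring
    · simp
  rw [e]
  refine (norm_add_le _ _).trans ?_
  rw [norm_mul, Complex.norm_I, one_mul]

theorem split1 (hε : 0 < ε) (h0 : MemLp G₀ 3 volume) (c : Continuous G₁)
    (s : HasCompactSupport G₁) (h2 : MemLp G₂ 3 volume) :
    ‖T ε R G₀ G₁ G₂‖ ≤ ‖T ε R G₀ (up (rp G₁)) G₂‖ + ‖T ε R G₀ (up (ip G₁)) G₂‖ := by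
  have i1 := integrable_kern (R := R) hε h0 (cc_memLp (cc_rp c s)) h2
  have i2 := integrable_kern (R := R) hε h0 (cc_memLp (cc_ip c s)) h2
  have e : T ε R G₀ G₁ G₂ = T ε R G₀ (up (rp G₁)) G₂ + Complex.I * T ε R G₀ (up (ip G₁)) G₂ := by
    unfold T
    rw [← integral_const_mul, ← integral_add i1 (i2.const_mul _)]
    refine integral_congr_ae (ae_of_all _ fun x => ?_)
    simp only [kern]
    split_ifs
    · rw [re_im (G₁ (x.2.1, x.2.2))]
      simp only [up, rp, ip]
      simp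
      ring
    · simp
  rw [e]
  refine (norm_add_le _ _).trans ?_
  rw [norm_mul, Complex.norm_I, one_mul]

theorem split2 (hε : 0 < ε) (h0 : MemLp G₀ 3 volume) (h1 : MemLp G₁ 3 volume)
    (c : Continuous G₂) (s : HasCompactSupport G₂) :
    ‖T ε R G₀ G₁ G₂‖ ≤ ‖T ε R G₀ G₁ (up (rp G₂))‖ + ‖T ε R G₀ G₁ (up (ip G₂))‖ := by
  have i1 := integrable_kern (R := R) hε h0 h1 (cc_memLp (cc_rp c s))
  have i2 := integrable_kern (R := R) hε h0 h1 (cc_memLp (cc_ip c s))
  have e : T ε R G₀ G₁ G₂ = T ε R G₀ G₁ (up (rp G₂)) + Complex.I * T ε R G₀ G₁ (up (ip G₂)) := by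
    unfold T
    rw [← integral_const_mul, ← integral_add i1 (i2.const_mul _)]
    refine integral_congr_ae (ae_of_all _ fun x => ?_)
    simp only [kern]
    split_ifs
    · rw [re_im (G₂ (x.2.2, x.1))]
      simp only [up, rp, ip]
      simp
      ring
    · simp
  rw [e]
  refine (norm_add_le _ _).trans ?_
  rw [norm_mul, Complex.norm_I, one_mul]

end

/-- one level of the splitting -/
theorem two_le {a b c X Y Z : ℝ} (h : a ≤ b + c) (hb : b ≤ X) (hc : c ≤ Y) (hZ : X + Y ≤ Z) :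
    a ≤ Z := by linarith

/-- **FIN** -/
theorem full_of_real : StReal → StFull := by
  rintro ⟨C, hC⟩
  set D : ℝ := max C 0 with hD
  have hD0 : 0 ≤ D := le_max_right _ _
  have real : ∀ g₀ g₁ g₂ : ℝ × ℝ → ℝ, CC g₀ → CC g₁ → CC g₂ → ∀ ε R : ℝ, 0 < ε → ε < R →
      ‖T ε R (up g₀) (up g₁) (up g₂)‖ ≤ D * (N3 (up g₀) * N3 (up g₁) * N3 (up g₂)) := by
    intro g₀ g₁ g₂ h0 h1 h2 ε R hε hR
    rw [T_up h0 h1 h2 hε hR, Complex.norm_real, Real.norm_eq_abs]
    refine (hC g₀ g₁ g₂ h0 h1 h2 ε R hε hR).trans ?_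
    rw [← N3_up h0, ← N3_up h1, ← N3_up h2]
    refine mul_le_mul_of_nonneg_right (le_max_left _ _) ?_
    have := N3_nonneg (up g₀)
    have := N3_nonneg (up g₁)
    have := N3_nonneg (up g₂)
    positivity
  refine ⟨8 * D, fun G₀ G₁ G₂ m0 m1 m2 ε R hε hR => ⟨integrable_kern hε m0 m1 m2, ?_⟩⟩
  have hR0 : 0 < R := hε.trans hR
  refine density (C := 8 * D) (by positivity) hε hR0 ?_ m0 m1 m2
  intro g₀ g₁ g₂ c0 s0 c1 s1 c2 s2
  have k0 : MemLp g₀ 3 volume := c0.memLp_of_hasCompactSupport s0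
  have k1 : MemLp g₁ 3 volume := c1.memLp_of_hasCompactSupport s1
  have k2 : MemLp g₂ 3 volume := c2.memLp_of_hasCompactSupport s2
  have n0 := N3_nonneg g₀
  have n1 := N3_nonneg g₁
  have n2 := N3_nonneg g₂
  -- real, real, complex
  have A2 : ∀ a b : ℝ × ℝ → ℝ, CC a → CC b →
      ‖T ε R (up a) (up b) g₂‖ ≤ 2 * D * (N3 (up a) * N3 (up b) * N3 g₂) := by
    intro a b ha hb
    have q1 := N3_nonneg (up a)
    have q2 := N3_nonneg (up b)
    refine two_le (split2 hε (cc_memLp ha) (cc_memLp hb) c2 s2)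
      (real a b _ ha hb (cc_rp c2 s2) ε R hε hR) (real a b _ ha hb (cc_ip c2 s2) ε R hε hR) ?_
    have r1 := N3_rp_le k2
    have r2 := N3_ip_le k2
    have t1 : D * (N3 (up a) * N3 (up b) * N3 (up (rp g₂))) ≤ D * (N3 (up a) * N3 (up b) * N3 g₂) := by
      gcongr
    have t2 : D * (N3 (up a) * N3 (up b) * N3 (up (ip g₂))) ≤ D * (N3 (up a) * N3 (up b) * N3 g₂) := by
      gcongr
    linarith
  have A1 : ∀ a : ℝ × ℝ → ℝ, CC a →
      ‖T ε R (up a) g₁ g₂‖ ≤ 4 * D * (N3 (up a) * N3 g₁ * N3 g₂) := by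
    intro a ha
    have q1 := N3_nonneg (up a)
    refine two_le (split1 hε (cc_memLp ha) c1 s1 k2)
      (A2 a _ ha (cc_rp c1 s1)) (A2 a _ ha (cc_ip c1 s1)) ?_
    have r1 := N3_rp_le k1
    have r2 := N3_ip_le k1
    have t1 : 2 * D * (N3 (up a) * N3 (up (rp g₁)) * N3 g₂) ≤ 2 * D * (N3 (up a) * N3 g₁ * N3 g₂) := by
      gcongr
    have t2 : 2 * D * (N3 (up a) * N3 (up (ip g₁)) * N3 g₂) ≤ 2 * D * (N3 (up a) * N3 g₁ * N3 g₂) := by
      gcongr
    linarith
  refine two_le (split0 hε c0 s0 k1 k2) (A1 _ (cc_rp c0 s0)) (A1 _ (cc_ip c0 s0)) ?_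
  have r1 := N3_rp_le k0
  have r2 := N3_ip_le k0
  have t1 : 4 * D * (N3 (up (rp g₀)) * N3 g₁ * N3 g₂) ≤ 4 * D * (N3 g₀ * N3 g₁ * N3 g₂) := by
    gcongr
  have t2 : 4 * D * (N3 (up (ip g₀)) * N3 g₁ * N3 g₂) ≤ 4 * D * (N3 g₀ * N3 g₁ * N3 g₂) := by
    gcongr
  linarith

end Vale.Agent.P075.R.H903
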