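import Vale.Agent.P075.R.Defs

/-!
# P075, block FIN, part A: the shear, Hoelder on the planes, integrability of the kernel
-/

namespace Vale.Agent.P075.R.H903

open MeasureTheory Filter Topology ENNReal

/-- the shear `((a, b), u) ↦ (a, b, u - a - b)` -/
def sh (q : (ℝ × ℝ) × ℝ) : ℝ × ℝ × ℝ := (q.1.1, q.1.2, q.2 - q.1.1 - q.1.2)

/-- `(a, b) ↦ (b, u - a - b)` -/
def pA (u : ℝ) (p : ℝ × ℝ) : ℝ × ℝ := (p.2, u - p.1 - p.2)

/-- `(a, b) ↦ (u - a - b, a)` -/
def pB (u : ℝ) (p : ℝ × ℝ) : ℝ × ℝ := (u - p.1 - p.2, p.1)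

theorem mp_sh : MeasurePreserving sh volume volume := by
  have h1 : MeasurePreserving (fun q : (ℝ × ℝ) × ℝ => (q.1, q.2 - q.1.1 - q.1.2))
      (volume.prod volume) (volume.prod volume) := by
    refine MeasurePreserving.skew_product (f := fun p : ℝ × ℝ => p)
      (g := fun (p : ℝ × ℝ) (u : ℝ) => u - p.1 - p.2) (MeasurePreserving.id _) ?_ ?_
    · simp only [Function.uncurry_def]
      fun_prop
    · refine ae_of_all _ fun p => ?_
      have h : (fun u : ℝ => u - p.1 - p.2) = fun u => u - (p.1 + p.2) := by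
        ext u
        ring
      simp only [h]
      exact (measurePreserving_sub_right volume (p.1 + p.2)).map_eq
  have h2 : MeasurePreserving (MeasurableEquiv.prodAssoc : (ℝ × ℝ) × ℝ ≃ᵐ ℝ × ℝ × ℝ)
      (volume.prod volume) (volume.prod volume) := measurePreserving_prodAssoc _ _ _
  exact h2.comp h1

theorem mp_pA (u : ℝ) : MeasurePreserving (pA u) volume volume := by
  have h1 : MeasurePreserving (fun q : ℝ × ℝ => (q.1, u - q.1 - q.2))
      (volume.prod volume) (volume.prod volume) := by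
    refine MeasurePreserving.skew_product (f := fun p : ℝ => p)
      (g := fun (b : ℝ) (a : ℝ) => u - b - a) (MeasurePreserving.id _) ?_ ?_
    · simp only [Function.uncurry_def]
      fun_prop
    · exact ae_of_all _ fun p => (Measure.measurePreserving_sub_left volume (u - p)).map_eq
  have h2 : MeasurePreserving (Prod.swap : ℝ × ℝ → ℝ × ℝ) (volume.prod volume)
      (volume.prod volume) := Measure.measurePreserving_swap
  have h3 := h1.comp h2
  have : pA u = (fun q : ℝ × ℝ => (q.1, u - q.1 - q.2)) ∘ Prod.swap := by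
    ext p
    · rfl
    · simp [pA]
      ring
  rw [this]
  exact h3

theorem mp_pB (u : ℝ) : MeasurePreserving (pB u) volume volume := by
  have h1 : MeasurePreserving (fun q : ℝ × ℝ => (q.1, u - q.1 - q.2))
      (volume.prod volume) (volume.prod volume) := by
    refine MeasurePreserving.skew_product (f := fun p : ℝ => p)
      (g := fun (b : ℝ) (a : ℝ) => u - b - a) (MeasurePreserving.id _) ?_ ?_
    · simp only [Function.uncurry_def]
      fun_prop
    · exact ae_of_all _ fun p => (Measure.measurePreserving_sub_left volume (u - p)).map_eq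
  have h2 : MeasurePreserving (Prod.swap : ℝ × ℝ → ℝ × ℝ) (volume.prod volume)
      (volume.prod volume) := Measure.measurePreserving_swap
  exact h2.comp h1

/-- Hoelder on one plane -/
theorem hoelder_plane {G₀ G₁ G₂ : ℝ × ℝ → ℂ} (h0 : AEStronglyMeasurable G₀ volume)
    (h1 : AEStronglyMeasurable G₁ volume) (h2 : AEStronglyMeasurable G₂ volume) (u : ℝ) :
    ∫⁻ p : ℝ × ℝ, ‖G₀ p‖ₑ * ‖G₁ (pA u p)‖ₑ * ‖G₂ (pB u p)‖ₑ
      ≤ eLpNorm G₀ 3 volume * eLpNorm G₁ 3 volume * eLpNorm G₂ 3 volume := by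
  have hA1 : AEStronglyMeasurable (fun p => G₁ (pA u p)) volume := h1.comp_measurePreserving (mp_pA u)
  have hB1 : AEStronglyMeasurable (fun p => G₂ (pB u p)) volume := h2.comp_measurePreserving (mp_pB u)
  let f : Fin 3 → ℝ × ℝ → ℝ≥0∞ :=
    ![fun p => ‖G₀ p‖ₑ ^ (3 : ℝ), fun p => ‖G₁ (pA u p)‖ₑ ^ (3 : ℝ), fun p => ‖G₂ (pB u p)‖ₑ ^ (3 : ℝ)]
  have hf : ∀ i ∈ (Finset.univ : Finset (Fin 3)), AEMeasurable (f i) volume := by
    intro i _
    fin_cases i
    · exact h0.enorm.pow_const _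
    · exact hA1.enorm.pow_const _
    · exact hB1.enorm.pow_const _
  have key := ENNReal.lintegral_prod_norm_pow_le (μ := (volume : Measure (ℝ × ℝ)))
    (Finset.univ : Finset (Fin 3)) hf (p := fun _ => (1 / 3 : ℝ)) (by simp) (by
      intro i _
      norm_num)
  rw [Fin.prod_univ_three] at key
  simp only [Fin.prod_univ_three] at key
  have hr : ∀ x : ℝ≥0∞, (x ^ (3 : ℝ)) ^ (1 / 3 : ℝ) = x := by
    intro x
    rw [← ENNReal.rpow_mul]
    norm_num
  have e0 : ∀ p, f 0 p = ‖G₀ p‖ₑ ^ (3 : ℝ) := fun _ => rfl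
  have e1 : ∀ p, f 1 p = ‖G₁ (pA u p)‖ₑ ^ (3 : ℝ) := fun _ => rfl
  have e2 : ∀ p, f 2 p = ‖G₂ (pB u p)‖ₑ ^ (3 : ℝ) := fun _ => rfl
  simp only [e0, e1, e2, hr] at key
  have hn : ∀ G : ℝ × ℝ → ℂ, eLpNorm G 3 volume = (∫⁻ p, ‖G p‖ₑ ^ (3 : ℝ)) ^ (1 / 3 : ℝ) := by
    intro G
    rw [eLpNorm_eq_lintegral_rpow_enorm_toReal (by norm_num) (by norm_num)]
    simp
  have i1 : ∫⁻ p, ‖G₁ (pA u p)‖ₑ ^ (3 : ℝ) = ∫⁻ p, ‖G₁ p‖ₑ ^ (3 : ℝ) := by
    have h := lintegral_map' (μ := (volume : Measure (ℝ × ℝ))) (f := fun p => ‖G₁ p‖ₑ ^ (3 : ℝ))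
      (g := pA u) (by
        rw [(mp_pA u).map_eq]
        exact h1.enorm.pow_const _) (mp_pA u).measurable.aemeasurable
    rw [(mp_pA u).map_eq] at h
    exact h.symm
  have i2 : ∫⁻ p, ‖G₂ (pB u p)‖ₑ ^ (3 : ℝ) = ∫⁻ p, ‖G₂ p‖ₑ ^ (3 : ℝ) := by
    have h := lintegral_map' (μ := (volume : Measure (ℝ × ℝ))) (f := fun p => ‖G₂ p‖ₑ ^ (3 : ℝ))
      (g := pB u) (by
        rw [(mp_pB u).map_eq]
        exact h2.enorm.pow_const _) (mp_pB u).measurable.aemeasurable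
    rw [(mp_pB u).map_eq] at h
    exact h.symm
  rw [i1, i2] at key
  rw [hn G₀, hn G₁, hn G₂]
  exact key

/-- the kernel in the coordinates `((a, b), u)` -/
theorem kern_sh (ε R : ℝ) (G₀ G₁ G₂ : ℝ × ℝ → ℂ) (q : (ℝ × ℝ) × ℝ) :
    kern ε R G₀ G₁ G₂ (sh q) = if ε < |q.2| ∧ |q.2| < R then
      G₀ q.1 * G₁ (pA q.2 q.1) * G₂ (pB q.2 q.1) / ((q.2 : ℝ) : ℂ) else 0 := by
  have h : (sh q).1 + (sh q).2.1 + (sh q).2.2 = q.2 := by
    simp [sh]
  unfold kern
  rw [h]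
  rfl

/-- measurability of the kernel -/
theorem aesm_kern {G₀ G₁ G₂ : ℝ × ℝ → ℂ} (ε R : ℝ) (h0 : AEStronglyMeasurable G₀ volume)
    (h1 : AEStronglyMeasurable G₁ volume) (h2 : AEStronglyMeasurable G₂ volume) :
    AEStronglyMeasurable (kern ε R G₀ G₁ G₂) volume := by
  have q12 : AEStronglyMeasurable (fun x : ℝ × ℝ × ℝ => G₁ (x.2.1, x.2.2)) volume := by
    have : (fun x : ℝ × ℝ × ℝ => G₁ (x.2.1, x.2.2)) = fun x => G₁ x.2 := rfl
    rw [this]
    exact h1.comp_quasiMeasurePreserving Measure.quasiMeasurePreserving_snd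
  have q01 : AEStronglyMeasurable (fun x : ℝ × ℝ × ℝ => G₀ (x.1, x.2.1)) volume := by
    have hm : Measure.QuasiMeasurePreserving (fun x : ℝ × ℝ × ℝ => (x.1, x.2.1)) volume volume := by
      have e1 : Measure.QuasiMeasurePreserving
          (MeasurableEquiv.prodAssoc.symm : ℝ × ℝ × ℝ ≃ᵐ (ℝ × ℝ) × ℝ) volume volume :=
        ((measurePreserving_prodAssoc (volume : Measure ℝ) (volume : Measure ℝ)
          (volume : Measure ℝ)).symm _).quasiMeasurePreserving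
      have e2 : Measure.QuasiMeasurePreserving (Prod.fst : (ℝ × ℝ) × ℝ → ℝ × ℝ) volume volume :=
        Measure.quasiMeasurePreserving_fst
      exact e2.comp e1
    exact h0.comp_quasiMeasurePreserving hm
  have q20 : AEStronglyMeasurable (fun x : ℝ × ℝ × ℝ => G₂ (x.2.2, x.1)) volume := by
    have hm : Measure.QuasiMeasurePreserving (fun x : ℝ × ℝ × ℝ => (x.2.2, x.1)) volume volume := by
      have e0 : Measure.QuasiMeasurePreserving (Prod.swap : ℝ × (ℝ × ℝ) → (ℝ × ℝ) × ℝ)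
          volume volume :=
        (Measure.measurePreserving_swap (μ := (volume : Measure ℝ))
          (ν := (volume : Measure (ℝ × ℝ)))).quasiMeasurePreserving
      have e1 : Measure.QuasiMeasurePreserving
          (MeasurableEquiv.prodAssoc : (ℝ × ℝ) × ℝ ≃ᵐ ℝ × ℝ × ℝ) volume volume :=
        (measurePreserving_prodAssoc (volume : Measure ℝ) (volume : Measure ℝ)
          (volume : Measure ℝ)).quasiMeasurePreserving
      have e2 : Measure.QuasiMeasurePreserving (Prod.snd : ℝ × (ℝ × ℝ) → ℝ × ℝ) volume volume :=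
        Measure.quasiMeasurePreserving_snd
      exact (e2.comp e1).comp e0
    exact h2.comp_quasiMeasurePreserving hm
  have hS : MeasurableSet {x : ℝ × ℝ × ℝ | ε < |x.1 + x.2.1 + x.2.2| ∧ |x.1 + x.2.1 + x.2.2| < R} := by
    have hc : Measurable fun x : ℝ × ℝ × ℝ => |x.1 + x.2.1 + x.2.2| := by fun_prop
    exact (measurableSet_lt measurable_const hc).inter (measurableSet_lt hc measurable_const)
  have hq : AEStronglyMeasurable (fun x : ℝ × ℝ × ℝ =>
      G₀ (x.1, x.2.1) * G₁ (x.2.1, x.2.2) * G₂ (x.2.2, x.1) /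
        ((x.1 + x.2.1 + x.2.2 : ℝ) : ℂ)) volume := by
    simp only [div_eq_mul_inv]
    refine ((q01.mul q12).mul q20).mul ?_
    have : Measurable fun x : ℝ × ℝ × ℝ => (((x.1 + x.2.1 + x.2.2 : ℝ) : ℂ))⁻¹ := by
      have : Measurable fun x : ℝ × ℝ × ℝ => (((x.1 + x.2.1 + x.2.2 : ℝ) : ℂ)) := by
        exact Complex.measurable_ofReal.comp (by fun_prop)
      exact this.inv
    exact this.aestronglyMeasurable
  have := hq.indicator hS
  refine this.congr (ae_of_all _ fun x => ?_)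
  simp only [Set.indicator, Set.mem_ofPred_eq, kern]

/-- the bound of the absolute integral -/
theorem lint_kern {G₀ G₁ G₂ : ℝ × ℝ → ℂ} {ε R : ℝ} (hε : 0 < ε)
    (h0 : AEStronglyMeasurable G₀ volume)
    (h1 : AEStronglyMeasurable G₁ volume) (h2 : AEStronglyMeasurable G₂ volume) :
    ∫⁻ x, ‖kern ε R G₀ G₁ G₂ x‖ₑ ≤ ENNReal.ofReal (2 * R / ε) *
      (eLpNorm G₀ 3 volume * eLpNorm G₁ 3 volume * eLpNorm G₂ 3 volume) := by
  have hm := aesm_kern ε R h0 h1 h2
  have e1 : ∫⁻ x, ‖kern ε R G₀ G₁ G₂ x‖ₑ = ∫⁻ q, ‖kern ε R G₀ G₁ G₂ (sh q)‖ₑ := by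
    have h := lintegral_map' (μ := (volume : Measure ((ℝ × ℝ) × ℝ)))
      (f := fun x => ‖kern ε R G₀ G₁ G₂ x‖ₑ) (g := sh) (by
        rw [mp_sh.map_eq]
        exact hm.enorm) mp_sh.measurable.aemeasurable
    rw [mp_sh.map_eq] at h
    exact h
  rw [e1]
  have hm2 : AEMeasurable (fun q => ‖kern ε R G₀ G₁ G₂ (sh q)‖ₑ)
      ((volume : Measure (ℝ × ℝ)).prod (volume : Measure ℝ)) :=
    (hm.comp_measurePreserving mp_sh).enorm
  have e2 : ∫⁻ q, ‖kern ε R G₀ G₁ G₂ (sh q)‖ₑ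
      = ∫⁻ u : ℝ, ∫⁻ p : ℝ × ℝ, ‖kern ε R G₀ G₁ G₂ (sh (p, u))‖ₑ := by
    rw [Measure.volume_eq_prod]
    exact lintegral_prod_symm _ hm2
  rw [e2]
  have e3 : ∀ u : ℝ, ∫⁻ p : ℝ × ℝ, ‖kern ε R G₀ G₁ G₂ (sh (p, u))‖ₑ ≤
      (Set.Ioo (-R) R).indicator (fun _ => ENNReal.ofReal (1 / ε) *
        (eLpNorm G₀ 3 volume * eLpNorm G₁ 3 volume * eLpNorm G₂ 3 volume)) u := by
    intro u
    by_cases hu : ε < |u| ∧ |u| < R
    · have hmem : u ∈ Set.Ioo (-R) R := abs_lt.1 hu.2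
      rw [Set.indicator_of_mem hmem]
      have e4 : ∀ p : ℝ × ℝ, ‖kern ε R G₀ G₁ G₂ (sh (p, u))‖ₑ ≤ ENNReal.ofReal (1 / ε) *
          (‖G₀ p‖ₑ * ‖G₁ (pA u p)‖ₑ * ‖G₂ (pB u p)‖ₑ) := by
        intro p
        rw [kern_sh]
        simp only [hu, and_self, if_true]
        rw [div_eq_mul_inv, enorm_mul, enorm_mul, enorm_mul, mul_comm]
        gcongr
        rw [enorm_inv (by
          simp only [ne_eq, Complex.ofReal_eq_zero]
          intro h
          rw [h, abs_zero] at hu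
          linarith [hu.1])]
        have : ‖((u : ℝ) : ℂ)‖ₑ = ENNReal.ofReal |u| := by
          rw [← ofReal_norm, Complex.norm_real, Real.norm_eq_abs]
        rw [this, one_div, ENNReal.ofReal_inv_of_pos hε]
        exact ENNReal.inv_le_inv.2 (ENNReal.ofReal_le_ofReal hu.1.le)
      calc ∫⁻ p : ℝ × ℝ, ‖kern ε R G₀ G₁ G₂ (sh (p, u))‖ₑ
          ≤ ∫⁻ p : ℝ × ℝ, ENNReal.ofReal (1 / ε) *
            (‖G₀ p‖ₑ * ‖G₁ (pA u p)‖ₑ * ‖G₂ (pB u p)‖ₑ) := lintegral_mono e4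
        _ = ENNReal.ofReal (1 / ε) * ∫⁻ p : ℝ × ℝ,
            (‖G₀ p‖ₑ * ‖G₁ (pA u p)‖ₑ * ‖G₂ (pB u p)‖ₑ) :=
            lintegral_const_mul' _ _ ENNReal.ofReal_ne_top
        _ ≤ _ := by
            gcongr
            exact hoelder_plane h0 h1 h2 u
    · have : ∀ p : ℝ × ℝ, ‖kern ε R G₀ G₁ G₂ (sh (p, u))‖ₑ = 0 := by
        intro p
        rw [kern_sh]
        simp only [hu, if_false, enorm_zero]
      simp only [this, lintegral_zero]
      exact zero_le
  refine (lintegral_mono e3).trans ?_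
  rw [lintegral_indicator measurableSet_Ioo, setLIntegral_const, Real.volume_Ioo, mul_comm,
    ← mul_assoc, ← ENNReal.ofReal_mul' (by positivity)]
  apply le_of_eq
  congr 2
  ring

end Vale.Agent.P075.R.H903
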