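import Vale.Agent.P075.R.H903.FinA

/-!
# P075, block FIN, part B: trilinearity and density
-/

namespace Vale.Agent.P075.R.H903

open MeasureTheory Filter Topology ENNReal

/-- the `L^3` norm -/
noncomputable def N3 (G : ℝ × ℝ → ℂ) : ℝ := (eLpNorm G 3 volume).toReal

/-- the form -/
noncomputable def T (ε R : ℝ) (G₀ G₁ G₂ : ℝ × ℝ → ℂ) : ℂ := ∫ x, kern ε R G₀ G₁ G₂ x

theorem N3_nonneg (G : ℝ × ℝ → ℂ) : 0 ≤ N3 G := ENNReal.toReal_nonneg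

theorem integrable_kern {G₀ G₁ G₂ : ℝ × ℝ → ℂ} {ε R : ℝ} (hε : 0 < ε)
    (h0 : MemLp G₀ 3 volume) (h1 : MemLp G₁ 3 volume) (h2 : MemLp G₂ 3 volume) :
    Integrable (kern ε R G₀ G₁ G₂) volume := by
  refine ⟨aesm_kern ε R h0.1 h1.1 h2.1, ?_⟩
  refine lt_of_le_of_lt (lint_kern (R := R) hε h0.1 h1.1 h2.1) ?_
  exact ENNReal.mul_lt_top ENNReal.ofReal_lt_top
    (ENNReal.mul_lt_top (ENNReal.mul_lt_top h0.2 h1.2) h2.2)

theorem norm_T_le {G₀ G₁ G₂ : ℝ × ℝ → ℂ} {ε R : ℝ} (hε : 0 < ε) (hR : 0 < R)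
    (h0 : MemLp G₀ 3 volume) (h1 : MemLp G₁ 3 volume) (h2 : MemLp G₂ 3 volume) :
    ‖T ε R G₀ G₁ G₂‖ ≤ (2 * R / ε) * (N3 G₀ * N3 G₁ * N3 G₂) := by
  have h := lint_kern (R := R) hε h0.1 h1.1 h2.1
  have hfin : ENNReal.ofReal (2 * R / ε) *
      (eLpNorm G₀ 3 volume * eLpNorm G₁ 3 volume * eLpNorm G₂ 3 volume) ≠ ⊤ :=
    (ENNReal.mul_lt_top ENNReal.ofReal_lt_top
      (ENNReal.mul_lt_top (ENNReal.mul_lt_top h0.2 h1.2) h2.2)).ne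
  have h3 := ENNReal.toReal_mono hfin h
  have h4 : ‖T ε R G₀ G₁ G₂‖ ≤ (∫⁻ x, ‖kern ε R G₀ G₁ G₂ x‖ₑ).toReal := by
    unfold T
    rw [← toReal_enorm]
    exact ENNReal.toReal_mono (ne_top_of_le_ne_top hfin h) (enorm_integral_le_lintegral_enorm _)
  refine h4.trans (h3.trans (le_of_eq ?_))
  rw [ENNReal.toReal_mul, ENNReal.toReal_mul, ENNReal.toReal_mul,
    ENNReal.toReal_ofReal (by positivity)]
  rfl

theorem kern_sub0 (ε R : ℝ) (G g G₁ G₂ : ℝ × ℝ → ℂ) (x : ℝ × ℝ × ℝ) :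
    kern ε R (G - g) G₁ G₂ x = kern ε R G G₁ G₂ x - kern ε R g G₁ G₂ x := by
  unfold kern
  split_ifs
  · simp only [Pi.sub_apply]
    ring
  · simp

theorem kern_sub1 (ε R : ℝ) (G g G₁ G₂ : ℝ × ℝ → ℂ) (x : ℝ × ℝ × ℝ) :
    kern ε R G₁ (G - g) G₂ x = kern ε R G₁ G G₂ x - kern ε R G₁ g G₂ x := by
  unfold kern
  split_ifs
  · simp only [Pi.sub_apply]
    ring
  · simp

theorem kern_sub2 (ε R : ℝ) (G g G₁ G₂ : ℝ × ℝ → ℂ) (x : ℝ × ℝ × ℝ) :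
    kern ε R G₁ G₂ (G - g) x = kern ε R G₁ G₂ G x - kern ε R G₁ G₂ g x := by
  unfold kern
  split_ifs
  · simp only [Pi.sub_apply]
    ring
  · simp

theorem T_sub {G₀ G₁ G₂ g₀ g₁ g₂ : ℝ × ℝ → ℂ} {ε R : ℝ} (hε : 0 < ε)
    (h0 : MemLp G₀ 3 volume) (h1 : MemLp G₁ 3 volume) (h2 : MemLp G₂ 3 volume)
    (k0 : MemLp g₀ 3 volume) (k1 : MemLp g₁ 3 volume) (k2 : MemLp g₂ 3 volume) :
    T ε R G₀ G₁ G₂ = T ε R g₀ g₁ g₂ + (T ε R (G₀ - g₀) G₁ G₂ + T ε R g₀ (G₁ - g₁) G₂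
      + T ε R g₀ g₁ (G₂ - g₂)) := by
  have e0 : T ε R (G₀ - g₀) G₁ G₂ = T ε R G₀ G₁ G₂ - T ε R g₀ G₁ G₂ := by
    unfold T
    rw [← integral_sub (integrable_kern hε h0 h1 h2) (integrable_kern hε k0 h1 h2)]
    exact integral_congr_ae (ae_of_all _ fun x => kern_sub0 ε R G₀ g₀ G₁ G₂ x)
  have e1 : T ε R g₀ (G₁ - g₁) G₂ = T ε R g₀ G₁ G₂ - T ε R g₀ g₁ G₂ := by
    unfold T
    rw [← integral_sub (integrable_kern hε k0 h1 h2) (integrable_kern hε k0 k1 h2)]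
    exact integral_congr_ae (ae_of_all _ fun x => kern_sub1 ε R G₁ g₁ g₀ G₂ x)
  have e2 : T ε R g₀ g₁ (G₂ - g₂) = T ε R g₀ g₁ G₂ - T ε R g₀ g₁ g₂ := by
    unfold T
    rw [← integral_sub (integrable_kern hε k0 k1 h2) (integrable_kern hε k0 k1 k2)]
    exact integral_congr_ae (ae_of_all _ fun x => kern_sub2 ε R G₂ g₂ g₀ g₁ x)
  rw [e0, e1, e2]
  ring

theorem N3_le_add {G g : ℝ × ℝ → ℂ} (h : MemLp G 3 volume) (k : MemLp g 3 volume) {δ : ℝ}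
    (hδ : N3 (G - g) ≤ δ) : N3 g ≤ N3 G + δ := by
  have h1 : g = G - (G - g) := by
    ext p
    simp
  have hfin : eLpNorm G 3 volume + eLpNorm (G - g) 3 volume ≠ ⊤ :=
    (ENNReal.add_lt_top.2 ⟨h.2, (h.sub k).2⟩).ne
  have h2 : eLpNorm g 3 volume ≤ eLpNorm G 3 volume + eLpNorm (G - g) 3 volume := by
    conv_lhs => rw [h1]
    exact eLpNorm_sub_le h.1 (h.sub k).1 (by norm_num)
  have h3 := ENNReal.toReal_mono hfin h2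
  rw [ENNReal.toReal_add h.2.ne (h.sub k).2.ne] at h3
  unfold N3 at *
  linarith

/-- density -/
theorem density {C ε R : ℝ} (hC : 0 ≤ C) (hε : 0 < ε) (hR : 0 < R)
    (H : ∀ g₀ g₁ g₂ : ℝ × ℝ → ℂ, Continuous g₀ → HasCompactSupport g₀ → Continuous g₁ →
      HasCompactSupport g₁ → Continuous g₂ → HasCompactSupport g₂ →
      ‖T ε R g₀ g₁ g₂‖ ≤ C * (N3 g₀ * N3 g₁ * N3 g₂))
    {G₀ G₁ G₂ : ℝ × ℝ → ℂ} (h0 : MemLp G₀ 3 volume) (h1 : MemLp G₁ 3 volume)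
    (h2 : MemLp G₂ 3 volume) :
    ‖T ε R G₀ G₁ G₂‖ ≤ C * (N3 G₀ * N3 G₁ * N3 G₂) := by
  set B : ℝ := 2 * R / ε with hB
  have hB0 : 0 ≤ B := by positivity
  set Ψ : ℝ → ℝ := fun δ => C * ((N3 G₀ + δ) * (N3 G₁ + δ) * (N3 G₂ + δ)) +
    (B * (δ * N3 G₁ * N3 G₂) + B * ((N3 G₀ + δ) * δ * N3 G₂)
      + B * ((N3 G₀ + δ) * (N3 G₁ + δ) * δ)) with hΨ
  have key : ∀ δ : ℝ, 0 < δ → ‖T ε R G₀ G₁ G₂‖ ≤ Ψ δ := by
    intro δ hδ
    have hδ' : ENNReal.ofReal δ ≠ 0 := (ENNReal.ofReal_pos.2 hδ).ne'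
    obtain ⟨g₀, c0, d0, r0, k0⟩ := h0.exists_hasCompactSupport_eLpNorm_sub_le (by norm_num) hδ'
    obtain ⟨g₁, c1, d1, r1, k1⟩ := h1.exists_hasCompactSupport_eLpNorm_sub_le (by norm_num) hδ'
    obtain ⟨g₂, c2, d2, r2, k2⟩ := h2.exists_hasCompactSupport_eLpNorm_sub_le (by norm_num) hδ'
    have f0 : N3 (G₀ - g₀) ≤ δ := ENNReal.toReal_le_of_le_ofReal hδ.le d0
    have f1 : N3 (G₁ - g₁) ≤ δ := ENNReal.toReal_le_of_le_ofReal hδ.le d1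
    have f2 : N3 (G₂ - g₂) ≤ δ := ENNReal.toReal_le_of_le_ofReal hδ.le d2
    have n0 := N3_le_add h0 k0 f0
    have n1 := N3_le_add h1 k1 f1
    have n2 := N3_le_add h2 k2 f2
    have p0 := N3_nonneg g₀
    have p1 := N3_nonneg g₁
    have p2 := N3_nonneg g₂
    have P0 := N3_nonneg G₀
    have P1 := N3_nonneg G₁
    have P2 := N3_nonneg G₂
    have s0 := N3_nonneg (G₀ - g₀)
    have s1 := N3_nonneg (G₁ - g₁)
    have s2 := N3_nonneg (G₂ - g₂)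
    rw [T_sub hε h0 h1 h2 k0 k1 k2]
    have t0 := H g₀ g₁ g₂ r0 c0 r1 c1 r2 c2
    have t1 := norm_T_le (R := R) hε hR (h0.sub k0) h1 h2
    have t2 := norm_T_le (R := R) hε hR k0 (h1.sub k1) h2
    have t3 := norm_T_le (R := R) hε hR k0 k1 (h2.sub k2)
    refine (norm_add_le _ _).trans (add_le_add ?_ ((norm_add_le _ _).trans
      (add_le_add ((norm_add_le _ _).trans (add_le_add ?_ ?_)) ?_)))
    · refine t0.trans ?_
      gcongr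
    · refine t1.trans ?_
      gcongr
    · refine t2.trans ?_
      gcongr
    · refine t3.trans ?_
      gcongr
  have hcont : Continuous Ψ := by
    rw [hΨ]
    fun_prop
  have hlim : Tendsto Ψ (𝓝[>] 0) (𝓝 (Ψ 0)) := (hcont.tendsto 0).mono_left nhdsWithin_le_nhds
  have := ge_of_tendsto hlim (eventually_nhdsWithin_of_forall key)
  refine this.trans (le_of_eq ?_)
  simp [hΨ]

end Vale.Agent.P075.R.H903
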